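import Vale.Agent.P352X.EG.WC
import Vale.Agent.P352X.EG.SEC
import Vale.Agent.P352X.FSS.A

/-!
# P352Z, block FX: the weak commutant of a covariant family of Bose fields
-/

set_option linter.all false

open MeasureTheory Filter Topology
open scoped SchwartzMap ComplexConjugate ContDiff

namespace Vale.Agent.P352X.EG.Fx

open Vale.Agent.P352 Vale.Agent.P352.GF Vale.Agent.P352.BW Vale.Agent.P352.H246
open Vale.Agent.P352.H496 Vale.Agent.P352.H755 Vale.Agent.P352.H15
open Vale.Agent.P352.SubConf (IsAdj)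
open Vale.Agent.P352X.EB
open UniformSpace (Completion)

noncomputable section

variable {D : Type*} [NormedAddCommGroup D] [InnerProductSpace ℂ D]

/-- linear combinations of fields -/
inductive Ls (P : Fld D → Prop) : Fld D → Prop
  | base {B : Fld D} : P B → Ls P B
  | zero : Ls P fun _ _ => 0
  | lin {B C : Fld D} (z : ℂ) : Ls P B → Ls P C → Ls P fun f v => B f v + z • C f v
  | cg {B C : Fld D} : Ls P B → (∀ f v, IsTest f → C f v = B f v) → Ls P C

theorem Ls.sum {P : Fld D → Prop} {ι : Type*} (t : Finset ι) (z : ι → ℂ) {X : ι → Fld D}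
    (h : ∀ i ∈ t, Ls P (X i)) : Ls P fun f v => ∑ i ∈ t, z i • X i f v := by
  classical
  induction t using Finset.induction_on with
  | empty => exact .cg .zero fun _ _ _ => by simp
  | insert i t hi ih =>
    refine .cg (.lin (z i) (ih fun j hj => h j (Finset.mem_insert_of_mem hj))
      (h i (Finset.mem_insert_self _ _))) fun _ _ _ => ?_
    rw [Finset.sum_insert hi, add_comm]

theorem Ls.mono {P P' : Fld D → Prop} (h : ∀ B, P B → Ls P' B) {B : Fld D} (hB : Ls P B) :
    Ls P' B := by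
  induction hB with
  | base k => exact h _ k
  | zero => exact .zero
  | lin z _ _ h1 h2 => exact .lin z h1 h2
  | cg _ e h1 => exact .cg h1 e

theorem Ls.adj {P : Fld D → Prop} (h : ∀ B, P B → ∃ B', Ls P B' ∧ IsAdj B B') {B : Fld D}
    (hB : Ls P B) : ∃ B', Ls P B' ∧ IsAdj B B' := by
  induction hB with
  | base k => exact h _ k
  | zero => exact ⟨_, .zero, fun _ _ _ _ => by simp⟩
  | lin z _ _ h1 h2 =>
    obtain ⟨B', a1, b1⟩ := h1
    obtain ⟨C', a2, b2⟩ := h2
    exact ⟨_, .lin (conj z) a1 a2, fun f v w hf => by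
      simp only [inner_add_left, inner_add_right, inner_smul_left, inner_smul_right, b1 f v w hf,
        b2 f v w hf]⟩
  | cg _ e h1 =>
    obtain ⟨B', a1, b1⟩ := h1
    exact ⟨_, a1, fun f v w hf => by rw [e f v hf, b1 f v w hf]⟩

theorem adj_eq {B B1 B2 : Fld D} (h1 : IsAdj B B1) (h2 : IsAdj B B2) {f : Fn} (hf : IsTest f)
    (w : D) : B1 f w = B2 f w := ext_inner_left ℂ fun v => by
  rw [← bar_bar f, ← h1 _ v w (isTest_bar hf), h2 _ v w (isTest_bar hf)]

theorem adj_coe {B B' : Fld D} (h : IsAdj B B') {f : Fn} (hf : IsTest f) (v w : D) :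
    inner ℂ ((B' (bar f) w : D) : Completion D) (v : Completion D) =
      inner ℂ (w : Completion D) ((B f v : D) : Completion D) := by
  rw [Completion.inner_coe, Completion.inner_coe, ← inner_conj_symm, ← h f v w hf, inner_conj_symm]

/-- covariant families of Bose fields -/
structure Fm (c : Cg D) (P : Fld D → Prop) : Prop where
  bose : ∀ B, P B → c.Q.bose B
  adj : ∀ B, P B → ∃ B', P B' ∧ IsAdj B B'
  cov : ∀ B s L a, P B → 0 < s → IsLor L → ∃ C, Ls P C ∧ ∀ f v, IsTest f →
    B f (c.Q.U s L a v) = c.Q.U s L a (C (fun x => f (sim s L a x)) v)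

section defs

variable (c : Cg D) (P : Fld D → Prop)

/-- the polynomials in the fields of the family applied to the vacuum -/
def S0 : Submodule ℂ D :=
  sInf {S | c.Q.vac ∈ S ∧ ∀ B f v, P B → IsTest f → v ∈ S → B f v ∈ S}

/-- their closure -/
def HB : Submodule ℂ (Completion D) :=
  ((S0 c P).map (Completion.toComplL : D →L[ℂ] Completion D).toLinearMap).topologicalClosure

instance : (HB c P).HasOrthogonalProjection :=
  haveI : CompleteSpace (HB c P) := (Submodule.isClosed_topologicalClosure _).completeSpace_coe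
  inferInstance

/-- the projection on the sector -/
def Pj : Completion D →L[ℂ] Completion D := (HB c P).starProjection

/-- the weak commutant of the family in the region `O` -/
def Wc (O : Set V) : Set (Completion D →L[ℂ] Completion D) := {Y | ∀ B B' f, P B → P B' →
  IsAdj B B' → In O f → ∀ v w : D, inner ℂ ((B' (bar f) w : D) : Completion D) (Y v) =
    inner ℂ (w : Completion D) (Y (B f v : D))}

/-- the properties of the weak commutant -/
structure WC0 : Prop where
  one : ∀ O, 1 ∈ Wc P O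
  add : ∀ O, ∀ Y ∈ Wc P O, ∀ Y' ∈ Wc P O, Y + Y' ∈ Wc P O
  smul : ∀ O (s : ℂ), ∀ Y ∈ Wc P O, s • Y ∈ Wc P O
  star : ∀ O, ∀ Y ∈ Wc P O, star Y ∈ Wc P O
  mul : ∀ O, IsOpen O → ∀ Y ∈ Wc P O, ∀ Y' ∈ Wc P O, Y * Y' ∈ Wc P O
  anti : ∀ O O', O ⊆ O' → ∀ Y ∈ Wc P O', Y ∈ Wc P O
  com : ∀ O, ∀ Y ∈ (c.N O).commutant, Y ∈ Wc P O
  gam : ∀ O, c.Γ ∈ Wc P O
  pj : ∀ O, Pj c P ∈ Wc P O
  cov : ∀ (g : Sh c) O, ∀ Y ∈ Wc P O, Star.star (g.U c) * Y * g.U c ∈ Wc P (g.act ⁻¹' O)

end defs

variable {c : Cg D} {P : Fld D → Prop}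

theorem Fm.fld (h : Fm c P) {B : Fld D} (hB : P B) : c.Q.fld B := c.Q.bose_fld _ (h.bose B hB)

theorem Fm.ladj (h : Fm c P) {B : Fld D} (hB : Ls P B) : ∃ B', Ls P B' ∧ IsAdj B B' :=
  hB.adj fun B k => let ⟨B', a, b⟩ := h.adj B k; ⟨B', .base a, b⟩

theorem wc_ls (h : Fm c P) {O : Set V} {Y : Completion D →L[ℂ] Completion D} (hY : Y ∈ Wc P O)
    {B : Fld D} (hB : Ls P B) {f : Fn} (hf : In O f) (v w : D) : ∀ B', IsAdj B B' →
    inner ℂ ((B' (bar f) w : D) : Completion D) (Y v) =
      inner ℂ (w : Completion D) (Y (B f v : D)) := by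
  induction hB with
  | base k =>
    intro B' a
    obtain ⟨B1, b1, b2⟩ := h.adj _ k
    rw [adj_eq a b2 (isTest_bar hf.1)]
    exact hY _ B1 f k b1 b2 hf v w
  | zero =>
    intro B' a
    rw [adj_eq a (B2 := fun _ _ => 0) (fun _ _ _ _ => by simp) (isTest_bar hf.1)]
    simp [Completion.coe_zero]
  | lin z k1 k2 h1 h2 =>
    intro B' a
    obtain ⟨B1, -, b1⟩ := h.ladj k1
    obtain ⟨C1, -, b2⟩ := h.ladj k2
    rw [adj_eq a (B2 := fun f v => B1 f v + conj z • C1 f v) (fun f v w hf => by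
      simp only [inner_add_left, inner_add_right, inner_smul_left, inner_smul_right, b1 f v w hf,
        b2 f v w hf]) (isTest_bar hf.1)]
    simp only [Completion.coe_add, Completion.coe_smul, map_add, map_smul, inner_add_left,
      inner_add_right, inner_smul_left, inner_smul_right, h1 _ b1, h2 _ b2, Complex.conj_conj]
  | cg k e h1 =>
    intro B' a
    rw [e f v hf.1]
    exact h1 B' fun g v w hg => by rw [← e g v hg, a g v w hg]

theorem s0_P {B : Fld D} (hB : P B) {f : Fn} (hf : IsTest f) {s : D} (hs : s ∈ S0 c P) :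
    B f s ∈ S0 c P :=
  Submodule.mem_sInf.2 fun S hS => hS.2 B f s hB hf (Submodule.mem_sInf.1 hs S hS)

theorem s0_U (t : E0 c) (h : Fm c P) (a : V) {s : D} (hs : s ∈ S0 c P) :
    c.Q.U 1 GF.one a s ∈ S0 c P := by
  have k := fun v => t.sg.coe 1 GF.one a v one_pos H496.isLor_one
  let l : D →ₗ[ℂ] D :=
    { toFun := c.Q.U 1 GF.one a
      map_add' := fun v w => Completion.coe_injective D (by
        simp only [Completion.coe_add, ← k, map_add])
      map_smul' := fun z v => Completion.coe_injective D (by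
        simp only [Completion.coe_smul, ← k, map_smul, RingHom.id_apply]) }
  refine Submodule.mem_sInf.1 hs ((S0 c P).comap l) ⟨?_, fun B f v hB hf hv => ?_⟩
  · show c.Q.U 1 GF.one a c.Q.vac ∈ S0 c P
    rw [c.Q.U_vac 1 _ a one_pos H496.isLor_one]
    exact Submodule.mem_sInf.2 fun S hS => hS.1
  · have h1 := c.Q.transl B a _ v (h.fld hB) (WCp.test_tr hf (-a))
    have h2 : (fun x => f (sim 1 GF.one (-a) (sim 1 GF.one a x))) = f := by
      funext x; rw [HM.sim_tr, HM.sim_tr, add_neg_cancel_right]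
    rw [h2] at h1
    show c.Q.U 1 GF.one a (B f v) ∈ S0 c P
    rw [← h1]
    exact s0_P hB (WCp.test_tr hf (-a)) hv

theorem pj_mem (u : Completion D) :
    Pj c P u ∈ closure ((fun s : D => (s : Completion D)) '' S0 c P) :=
  (HB c P).starProjection_apply_mem u

theorem pj_fix {s : D} (hs : s ∈ S0 c P) (u : Completion D) :
    inner ℂ (s : Completion D) (Pj c P u) = inner ℂ (s : Completion D) u := by
  have : (s : Completion D) ∈ HB c P := subset_closure ⟨s, hs, rfl⟩
  rw [Pj, ← Submodule.inner_starProjection_left_eq_right, Submodule.starProjection_eq_self_iff.2 this]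

theorem cov0 (t : E0 c) (h : Sh c) {B C : Fld D} (hB : c.Q.bose B) {f : Fn} (hf : IsTest f)
    (e0 : ∀ v, B f (c.Q.U h.s h.L h.a v) = c.Q.U h.s h.L h.a (C (h.pull f) v))
    {v v' : D} (e : (v : Completion D) = h.U c v') : ((B f v : D) : Completion D) =
      h.U c ((C (h.pull f) v' : D) : Completion D) := by
  have k := fun v => t.sg.coe h.s h.L h.a v h.hs h.hL
  have h1 : ((B f (c.Q.U h.s h.L h.a v') : D) : Completion D) = Ug c.Q h.s h.L h.a
      ((C (h.pull f) v' : D) : Completion D) := by rw [e0, k]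
  unfold Sh.U at e ⊢
  cases he : h.e
  · rw [he, cond_false, k] at e
    rw [cond_false, ← h1, Completion.coe_injective D e]
  · rw [he, cond_true, ContinuousLinearMap.mul_apply, k, c.hN.ext] at e
    rw [cond_true, ContinuousLinearMap.mul_apply, ← h1, Completion.coe_injective D e, c.hN.ext,
      c.hN.bose _ _ _ hB hf]

open WCp in
theorem wc0 (t : E0 c) (gr : GR c) (eb : EBd c.Q) (h : Fm c P) : WC0 c P := by
  refine ⟨fun O B B' f _ _ a hf v w => adj_coe a hf.1 v w,
    fun O Y hY Y' hY' B B' f b b' a hf v w => ?_,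
    fun O s Y hY B B' f b b' a hf v w => ?_, fun O Y hY B B' f b b' a hf v w => ?_,
    fun O hO Y hY Y' hY' B B' f b b' a hf v w => ?_,
    fun O O' k Y hY B B' f b b' a hf => hY B B' f b b' a ⟨hf.1, hf.2.1, hf.2.2.trans k⟩,
    fun O Y hY B B' f b b' a hf v w => ?_, fun O B B' f b b' a hf v w => ?_,
    fun O B B' f b b' a hf v w => ?_, fun g O Y hY B B' f b b' a hf v w => ?_⟩
  · simp only [ContinuousLinearMap.add_apply, inner_add_right, hY B B' f b b' a hf,
      hY' B B' f b b' a hf]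
  · simp only [ContinuousLinearMap.smul_apply, inner_smul_right, hY B B' f b b' a hf]
  · have := hY B' B _ b' b (H755.adj_symm a) hf.bar w v
    rw [bar_bar] at this
    rw [ContinuousLinearMap.star_eq_adjoint, ContinuousLinearMap.adjoint_inner_right,
      ContinuousLinearMap.adjoint_inner_right, ← inner_conj_symm, ← this, inner_conj_symm]
  · obtain ⟨ε, hε, k⟩ := in_tr hO hf
    have := gr eb ⊤ B B' f (Y' v)
      (fun a => Y' (B (fun x => f (sim 1 GF.one a x)) v : D)) ε hε (h.fld b) (h.fld b')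
      a ⟨hf.1, hf.2.1, Set.subset_univ _⟩ (fun _ _ _ => trivial) (fun _ _ => trivial)
      (by simpa using Completion.denseRange_coe _) (Y'.continuous.comp (cont_tr (h.fld b) hf.1 v))
      fun y hy => ⟨by simpa using Completion.denseRange_coe _,
        fun s _ => hY' B B' _ b b' a (k y hy) v s⟩
    simp only [tr0] at this
    exact of_cl (φ := innerSL ℂ ((B' (bar f) w : D) : Completion D) ∘L Y)
      (ψ := innerSL ℂ (w : Completion D) ∘L Y) this fun s => hY B B' f b b' a hf s w
  · obtain ⟨X', h1, h2⟩ := c.hN.fld O B f (h.fld b) hf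
    rw [← h2 Y hY, show X' w = B' (bar f) w from
      ext_inner_left ℂ fun u => by rw [← h1, a f u w hf.1]]
  · rw [c.hN.ext, c.hN.ext, adj_coe a hf.1, c.hN.bose _ _ _ (h.bose _ b) hf.1]
  · have := gr eb (S0 c P) B B' f (Pj c P v)
      (fun a => Pj c P (B (fun x => f (sim 1 GF.one a x)) v : D)) 1 one_pos (h.fld b) (h.fld b')
      a ⟨hf.1, hf.2.1, Set.subset_univ _⟩ (fun a _ => s0_U t h a)
      (fun _ => s0_P b hf.1) (pj_mem _) ((Pj c P).continuous.comp (cont_tr (h.fld b) hf.1 v))
      fun y _ => ⟨pj_mem _, fun s hs => by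
        rw [pj_fix hs, pj_fix (s0_P b' (isTest_bar (test_tr hf.1 y)) hs),
          adj_coe a (test_tr hf.1 y)]⟩
    simp only [tr0] at this
    exact of_cl (φ := innerSL ℂ ((B' (bar f) w : D) : Completion D))
      (ψ := innerSL ℂ (w : Completion D)) this fun s => adj_coe a hf.1 s w
  · have u1 : ∀ z, g.inv.U c (g.U c z) = z := fun z => by
      rw [t.sg.U_inv, ← ContinuousLinearMap.mul_apply, (t.sg.uni g).1]; rfl
    have u2 : ∀ z, g.U c (g.inv.U c z) = z := fun z => by
      rw [t.sg.U_inv, ← ContinuousLinearMap.mul_apply, (t.sg.uni g).2]; rfl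
    obtain ⟨v', hv⟩ := t.sg.sur g v
    obtain ⟨w', hw⟩ := t.sg.sur g w
    have hi : In O (g.inv.pull f) := by
      obtain ⟨h1, h2, h3⟩ := t.sg.inn g.inv _ f hf
      exact ⟨h1, h2, fun x hx => t.sg.act_inv g x ▸ h3 hx⟩
    obtain ⟨C, c1, c2⟩ := h.cov B _ _ g.inv.a b g.inv.hs g.inv.hL
    obtain ⟨C', -, c3⟩ := h.ladj c1
    have c4 := t.bas.sadj _ _ g.inv.a 1 (fun _ => 1) B B' (fun _ => C) (fun _ => C') g.inv.hs
      g.inv.hL a (fun _ => c3) (fun f v hf => by simp [c2 f v hf])
    have e1 := cov0 t g.inv (h.bose _ b) hf.1 (C := C) (fun v => c2 f v hf.1) (v := v) (v' := v')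
      (by rw [← hv, u1])
    have e2 := cov0 t g.inv (h.bose _ b') (isTest_bar hf.1) (C := C')
      (fun v => (c4 _ v (isTest_bar hf.1)).trans (by simp; rfl)) (v := w) (v' := w') (by rw [← hw, u1])
    simp only [ContinuousLinearMap.mul_apply, ContinuousLinearMap.star_eq_adjoint,
      ContinuousLinearMap.adjoint_inner_right]
    rw [e1, e2, u2, u2, hv, hw]
    exact wc_ls h hY c1 hi v' w' C' c3

end

end Vale.Agent.P352X.EG.Fx
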