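import Vale.Agent.P352Z.FX.A

/-!
# P352Z, block FX: the sector of a covariant family of Bose fields
-/

set_option linter.all false

open MeasureTheory Filter Topology
open scoped SchwartzMap ComplexConjugate ContDiff

namespace Vale.Agent.P352X.EG.Fx

open Vale.Agent.P352 Vale.Agent.P352.GF Vale.Agent.P352.BW Vale.Agent.P352.H246
open Vale.Agent.P352.H496 Vale.Agent.P352.H755 Vale.Agent.P352.H15
open Vale.Agent.P352.SubConf (IsAdj)
open Vale.Agent.P352X.EB
open UniformSpace (Completion)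
open Complex (I)
open ContinuousLinearMap (adjoint)
open Sct (ev_sch der_iso der_mem)

noncomputable section

variable {D : Type*} [NormedAddCommGroup D] [InnerProductSpace ℂ D] {c : Cg D}
  {P : Fld D → Prop} {B : Fld D}

variable (c P) in
/-- the vectors of `D` in the sector -/
def ES : Submodule ℂ D := (HB c P).comap (Completion.toComplL : D →L[ℂ] Completion D).toLinearMap

lemma mem_EE {v : D} : v ∈ ES c P ↔ (v : Completion D) ∈ HB c P := Iff.rfl

lemma S0_le {S : Submodule ℂ D} (h0 : c.Q.vac ∈ S)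
    (h : ∀ B f v, P B → IsTest f → v ∈ S → B f v ∈ S) : S0 c P ≤ S := sInf_le ⟨h0, h⟩

lemma vac_S0 : c.Q.vac ∈ S0 c P := Submodule.mem_sInf.2 fun _ h => h.1

lemma S0_EE : S0 c P ≤ ES c P := fun v hv =>
  Submodule.le_topologicalClosure _ (Submodule.mem_map_of_mem hv)

lemma HB_ind {A : Set (Completion D)} (hA : IsClosed A)
    (h : ∀ v ∈ S0 c P, (v : Completion D) ∈ A) : ∀ z ∈ HB c P, z ∈ A := fun z hz =>
  closure_minimal (by rintro _ ⟨v, hv, rfl⟩; exact h v hv) hA hz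

lemma HB_closed : IsClosed (HB c P : Set (Completion D)) := Submodule.isClosed_topologicalClosure _

/-- the hypotheses -/
structure Hy (c : Cg D) (P : Fld D → Prop) : Prop where
  t : E0 c
  fm : Fm c P
  wc : WC0 c P

variable (h : Hy c P)
include h

lemma Hy.T0 (hB : P B) {f : Fn} (hf : In Set.univ f) {v : D} (hv : v ∈ ES c P) :
    B f v ∈ ES c P := by
  obtain ⟨B', b, a⟩ := h.fm.adj B hB
  refine mem_EE.2 (Submodule.starProjection_eq_self_iff.1 (ext_inner_left ℂ fun z => ?_))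
  refine Completion.induction_on z (isClosed_eq (by fun_prop) (by fun_prop)) fun w => ?_
  have h1 := h.wc.pj _ B B' f hB b a hf v w
  rw [Pj, Submodule.starProjection_eq_self_iff.2 (mem_EE.1 hv), adj_coe a hf.1] at h1
  exact h1.symm

lemma Hy.Tm (hB : P B) {f : Fn} (hf : IsTest f) {v : D} (hv : v ∈ ES c P) :
    B f v ∈ ES c P := by
  obtain ⟨g, rfl⟩ := hf
  have h1 := ((Completion.continuous_coe D).comp
    (c.Q.cont _ v (h.fm.fld hB))).continuousAt.tendsto.comp (h.t.ana.lim g)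
  refine HB_closed.mem_of_tendsto h1 (Eventually.of_forall fun R => ?_)
  have h2 := h.t.ana.inn R (ev g) ⟨g, rfl⟩
  change ((B (ev (sch (cutf R (ev g)))) v : D) : Completion D) ∈ HB c P
  rw [ev_sch h2.1]
  exact h.T0 hB ⟨h2.1, h2.2.1, Set.subset_univ _⟩ hv

lemma Hy.Lm (hB : Ls P B) {f : Fn} (hf : IsTest f) {v : D} (hv : v ∈ ES c P) :
    B f v ∈ ES c P := by
  induction hB with
  | base k => exact h.Tm k hf hv
  | zero => exact zero_mem _
  | lin z _ _ h1 h2 => exact add_mem h1 (Submodule.smul_mem _ _ h2)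
  | cg _ e h1 => rwa [e f v hf]

lemma Hy.gam : ∀ z ∈ HB c P, c.Γ z = z := by
  let S : Submodule ℂ D :=
    { carrier := {v | c.G v = v}
      add_mem' := fun {a b} ha hb => by
        change c.G _ = _ at ha hb ⊢
        rw [h.t.bas.gadd, ha, hb]
      zero_mem' := by simpa using h.t.bas.gsmul 0 0
      smul_mem' := fun z a ha => by
        change c.G _ = _ at ha ⊢
        rw [h.t.bas.gsmul, ha] }
  have h1 : S0 c P ≤ S := S0_le c.hN.vac fun B f v hB hf hv => by
    change c.G _ = _ at hv ⊢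
    rw [← c.hN.bose _ f v (h.fm.bose B hB) hf, hv]
  refine HB_ind (A := {z | c.Γ z = z}) (isClosed_eq c.Γ.continuous continuous_id) fun v hv => ?_
  change c.Γ _ = _
  rw [c.hN.ext, show c.G v = v from h1 hv]

lemma Hy.gamv {v : D} (hv : v ∈ ES c P) : c.G v = v :=
  Completion.coe_injective D ((c.hN.ext v).symm.trans (h.gam _ hv))

lemma Hy.star0 (g : Sg) : ∀ z ∈ HB c P, star (Ug c.Q g.s g.L g.a) z ∈ HB c P := by
  let g0 : Sh c := ⟨g, false⟩
  have hu : ∀ z, star (g0.U c) (g0.U c z) = z := fun z =>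
    congrArg (fun X : Completion D →L[ℂ] Completion D => X z) (h.t.sg.uni g0).1
  have hu' : ∀ z, g0.U c (star (g0.U c) z) = z := fun z =>
    congrArg (fun X : Completion D →L[ℂ] Completion D => X z) (h.t.sg.uni g0).2
  have hc : ∀ v : D, g0.U c v = (c.Q.U g.s g.L g.a v : D) := fun v =>
    h.t.sg.coe _ _ _ v g.hs g.hL
  let S : Submodule ℂ D :=
    (HB c P).comap (star (g0.U c) ∘L (Completion.toComplL : D →L[ℂ] Completion D)).toLinearMap
  have hS : ∀ v : D, v ∈ S ↔ star (g0.U c) (v : Completion D) ∈ HB c P := fun v => Iff.rfl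
  have h1 : S0 c P ≤ S := by
    refine S0_le ((hS _).2 ?_) fun B f v hB hf hv => (hS _).2 ?_
    · rw [show star (g0.U c) (c.Q.vac : Completion D) = c.Om from (h.t.sg.vac g0).2]
      exact S0_EE vac_S0
    · obtain ⟨w, hw⟩ := h.t.sg.sur g0.inv v
      rw [h.t.sg.U_inv] at hw
      have hw' : w ∈ ES c P := by
        rw [mem_EE, ← hw]
        exact (hS _).1 hv
      have hv' : v = c.Q.U g.s g.L g.a w := Completion.coe_injective D (by rw [← hc, ← hw, hu'])
      obtain ⟨C, c1, c2⟩ := h.fm.cov B _ _ g.a hB g.hs g.hL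
      rw [hv', c2 f w hf, ← hc, hu]
      exact h.Lm c1 (Grp.test_sim g.hs g.hL g.a hf) hw'
  exact HB_ind (A := {z | star (g0.U c) z ∈ HB c P})
    (HB_closed.preimage (star (g0.U c)).continuous) fun v hv => (hS v).1 (h1 hv)

lemma Hy.star1 (g : Sh c) : ∀ z ∈ HB c P, star (g.U c) z ∈ HB c P := by
  obtain ⟨g, e⟩ := g
  cases e
  · exact h.star0 g
  · intro z hz
    change star (c.Γ * Ug c.Q g.s g.L g.a) z ∈ _
    rw [star_mul, h.t.sg.gs, ContinuousLinearMap.mul_apply, h.gam z hz]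
    exact h.star0 g z hz

lemma Hy.Um {s : ℝ} {L : Ix → V} (hs : 0 < s) (hL : IsLor L) (a : V) {v : D} (hv : v ∈ ES c P) :
    c.Q.U s L a v ∈ ES c P := by
  have h1 := h.star1 (Sh.inv ⟨⟨s, L, a, hs, hL⟩, false⟩) _ hv
  rw [h.t.sg.U_inv, star_star] at h1
  rw [mem_EE, ← h.t.sg.coe s L a v hs hL]
  exact h1

lemma Hy.Ad {s : ℝ → ℝ} {L : ℝ → Ix → V} {a : ℝ → V} {X : V → V} {v : D} (hv : v ∈ ES c P)
    (h1 : ∀ e, 0 < s e ∧ IsLor (L e))
    (h2 : HasDerivAt (fun e => c.Q.U (s e) (L e) (a e) v) (I • c.A X v) 0) :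
    c.A X v ∈ ES c P :=
  ((ES c P).smul_mem_iff Complex.I_ne_zero).1
    (der_mem (HB c P) h2 fun e => h.Um (h1 e).1 (h1 e).2 _ hv)

lemma Hy.Am {r : ℝ} {X : V → V} (hX : IsSim r X) {v : D} (hv : v ∈ ES c P) :
    c.A X v ∈ ES c P := by
  obtain ⟨b, w, hw, hX⟩ := hX
  obtain ⟨s, L, a, K⟩ := H746.exists_crv hw r b
  exact h.Ad hv (fun e => ⟨K.sp e, K.lor e⟩) (c.hN.der s L a X v K.s0 K.L0 K.a0
    (fun e => ⟨K.sp e, K.lor e⟩) fun n x => K.dX hX n x)

omit h

open Classical in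
variable (c P) in
/-- restriction to the sector -/
def rs (v : D) : ES c P := if hv : v ∈ ES c P then ⟨v, hv⟩ else 0

lemma rs_coe {v : D} (hv : v ∈ ES c P) : (rs c P v : D) = v := by rw [rs, dif_pos hv]

variable (c P) in
/-- the fields -/
def tt (B : Fld D) : Fld (ES c P) := fun f v => rs c P (B f v)

variable (c P) in
/-- the similitudes -/
def uu (s : ℝ) (L : Ix → V) (a : V) (v : ES c P) : ES c P := rs c P (c.Q.U s L a v)

variable (c P) in
/-- the generators -/
def aa (X : V → V) (v : ES c P) : ES c P := rs c P (c.A X v)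

include h

lemma Hy.tl (hB : Ls P B) {f : Fn} (hf : IsTest f) (v : ES c P) :
    (tt c P B f v : D) = B f v := rs_coe (h.Lm hB hf v.2)

lemma Hy.tc (hB : P B) {f : Fn} (hf : IsTest f) (v : ES c P) :
    (tt c P B f v : D) = B f v := h.tl (.base hB) hf v

lemma Hy.uc {s : ℝ} {L : Ix → V} (hs : 0 < s) (hL : IsLor L) (a : V) (v : ES c P) :
    (uu c P s L a v : D) = c.Q.U s L a v := rs_coe (h.Um hs hL a v.2)

lemma Hy.ac {r : ℝ} {X : V → V} (hX : IsSim r X) (v : ES c P) :
    (aa c P X v : D) = c.A X v := rs_coe (h.Am hX v.2)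

lemma Hy.cyc (S : Submodule ℂ (ES c P)) (h0 : ⟨c.Q.vac, S0_EE vac_S0⟩ ∈ S)
    (h1 : ∀ B f v, P B → IsTest f → v ∈ S → tt c P B f v ∈ S) : Dense (S : Set (ES c P)) := by
  have h2 : S0 c P ≤ S.map (ES c P).subtype := by
    refine S0_le ⟨_, h0, rfl⟩ ?_
    rintro B f _ hB hf ⟨v, hv, rfl⟩
    exact ⟨_, h1 B f v hB hf hv, h.tc hB hf v⟩
  intro v
  refine Metric.mem_closure_iff.2 fun ε hε => ?_
  obtain ⟨_, ⟨w, hw, rfl⟩, hd⟩ := Metric.mem_closure_iff.1 (mem_EE.1 v.2) ε hε
  obtain ⟨u, hu, rfl⟩ := h2 hw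
  exact ⟨u, hu, (Completion.dist_eq (v : D) (u : D)).symm.trans_lt hd⟩

lemma Hy.tadj {B' : Fld D} (hB : P B) (hB' : P B') (a : IsAdj B B') :
    IsAdj (tt c P B) (tt c P B') := fun f v w hf => by
  rw [Submodule.coe_inner, Submodule.coe_inner, h.tc hB hf, h.tc hB' (isTest_bar hf)]
  exact a f v w hf

/-- the theory of the sector -/
def Hy.q : Theory (ES c P) where
  vac := ⟨c.Q.vac, S0_EE vac_S0⟩
  fld B := ∃ C, P C ∧ B = tt c P C
  bose B := ∃ C, P C ∧ B = tt c P C
  U := uu c P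
  norm_vac := c.Q.norm_vac
  cyclic S h0 h1 := h.cyc S h0 fun B f v hB hf hv => h1 _ f v ⟨B, hB, rfl⟩ hf hv
  lin := by
    rintro _ f g z v ⟨B, hB, rfl⟩ hf hg
    refine Subtype.ext ?_
    have h1 := c.Q.lin _ f g z v (h.fm.fld hB) hf hg
    rw [Submodule.coe_add, Submodule.coe_smul, h.tc hB hf, h.tc hB hg, ← h1]
    refine rs_coe ?_
    rw [h1]
    exact add_mem (h.Tm hB hf v.2) (Submodule.smul_mem _ _ (h.Tm hB hg v.2))
  cont := by
    rintro _ v ⟨B, hB, rfl⟩
    refine continuous_induced_rng.2 ((c.Q.cont _ v (h.fm.fld hB)).congr fun g => ?_)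
    exact (h.tc hB ⟨g, rfl⟩ v).symm
  adj := by
    rintro _ ⟨B, hB, rfl⟩
    obtain ⟨B', b, a⟩ := h.fm.adj B hB
    exact ⟨_, ⟨B', b, rfl⟩, h.tadj hB b a⟩
  bose_fld _ h := h
  loc := by
    rintro _ _ f g v ⟨B, hB, rfl⟩ ⟨C, hC, rfl⟩ hf hg hs
    refine Subtype.ext ?_
    rw [h.tc hB hf, h.tc hC hg, h.tc hC hg, h.tc hB hf]
    exact c.Q.loc _ _ f g v (h.fm.bose B hB) (h.fm.fld hC) hf hg hs
  U_inner s L a v w hs hL := by
    rw [Submodule.coe_inner, Submodule.coe_inner, h.uc hs hL, h.uc hs hL]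
    exact c.Q.U_inner s L a v w hs hL
  U_vac s L a hs hL := Subtype.ext ((h.uc hs hL a _).trans (c.Q.U_vac s L a hs hL))
  transl := by
    rintro _ a f v ⟨B, hB, rfl⟩ hf
    refine Subtype.ext ?_
    rw [h.tc hB hf, h.uc one_pos H496.isLor_one, h.uc one_pos H496.isLor_one,
      h.tc hB (Grp.test_sim one_pos H496.isLor_one a hf)]
    exact c.Q.transl _ a f v (h.fm.fld hB) hf
  spectrum v := by
    obtain ⟨ν, h1, h2, h3⟩ := c.Q.spectrum v
    exact ⟨ν, h1, h2, fun a => by rw [Submodule.coe_inner, h.uc one_pos H496.isLor_one, h3]⟩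

lemma Hy.qU {s : ℝ} {L : Ix → V} (hs : 0 < s) (hL : IsLor L) (a : V) (v : ES c P) :
    (h.q.U s L a v : D) = c.Q.U s L a v := h.uc hs hL a v

lemma Hy.rep : Rep h.q (aa c P) where
  mul s L a s' L' a' v hs hs' hL hL' := by
    refine Subtype.ext ?_
    rw [h.qU hs hL, h.qU hs' hL', h.qU (mul_pos hs hs') (ue_lor hL hL')]
    rcases c.hN.mul s L a s' L' a' hs hs' hL hL' with h1 | h1
    · exact h1 v
    · rw [h1.2.2 v]
      exact h.gamv (h.Um (mul_pos hs hs') (ue_lor hL hL') _ v.2)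
  add r r' z X X' v hX hX' := by
    refine Subtype.ext ?_
    have h1 := c.hN.add r r' z X X' v hX hX'
    rw [Submodule.coe_add, Submodule.coe_smul, h.ac hX, h.ac hX', ← h1]
    refine rs_coe ?_
    rw [h1]
    exact add_mem (h.Am hX v.2) (Submodule.smul_mem _ _ (h.Am hX' v.2))
  der s L a X v h0 h1 h2 h3 h4 := by
    have h5 := c.hN.der s L a X v h0 h1 h2 h3 h4
    refine der_iso (ES c P).subtypeₗᵢ ?_
    have h6 : ((I • aa c P X v : ES c P) : D) = I • c.A X v := by
      rw [Submodule.coe_smul, aa, rs_coe (h.Ad v.2 h3 h5)]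
    simp only [Submodule.coe_subtypeₗᵢ, Submodule.coe_subtype, h6, fun e =>
      h.qU (h3 e).1 (h3 e).2 (a e) v]
    exact h5

omit h

variable (c P) in
/-- the embedding of the sector -/
def jj : Completion (ES c P) →L[ℂ] Completion D := (ES c P).subtypeL.completion

lemma jj_coe (v : ES c P) : jj c P v = ((v : D) : Completion D) :=
  (ES c P).subtypeL.completion_apply_coe v

lemma jj_inner (z w : Completion (ES c P)) : inner ℂ (jj c P z) (jj c P w) = inner ℂ z w :=
  Completion.induction_on₂ z w (isClosed_eq (by fun_prop) (by fun_prop)) fun a b => by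
    rw [jj_coe, jj_coe, Completion.inner_coe, Completion.inner_coe, Submodule.coe_inner]

lemma jj_iso (z : Completion (ES c P)) : adjoint (jj c P) (jj c P z) = z :=
  ext_inner_left ℂ fun w => by rw [ContinuousLinearMap.adjoint_inner_right, jj_inner]

lemma jj_mem (z : Completion (ES c P)) : jj c P z ∈ HB c P :=
  Completion.induction_on z (HB_closed.preimage (jj c P).continuous) fun v => by
    rw [jj_coe]
    exact v.2

lemma jj_pj (z : Completion D) : jj c P (adjoint (jj c P) z) = Pj c P z := by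
  refine (Submodule.eq_starProjection_of_mem_of_inner_eq_zero (jj_mem _) ?_).symm
  refine HB_ind (A := {w | inner ℂ (z - jj c P (adjoint (jj c P) z)) w = 0})
    (isClosed_eq (by fun_prop) continuous_const) fun v hv => ?_
  change inner ℂ _ _ = _
  rw [← jj_coe ⟨v, S0_EE hv⟩, inner_sub_left, jj_inner, ContinuousLinearMap.adjoint_inner_left,
    sub_self]

include h

lemma Hy.jU {s : ℝ} {L : Ix → V} (hs : 0 < s) (hL : IsLor L) (y : V) (z : Completion (ES c P)) :
    jj c P (Ue h.q s L y z) = Ue c.Q s L y (jj c P z) :=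
  Completion.induction_on z (isClosed_eq ((jj c P).continuous.comp (ue_cont _ _ _))
    ((ue_cont _ _ _).comp (jj c P).continuous)) fun v => by
      rw [ue_coe hs hL, jj_coe, jj_coe, ue_coe hs hL, h.qU hs hL]

lemma Hy.uv (hU : UVac c.Q) : UVac h.q := fun z hz => by
  obtain ⟨a, ha⟩ := hU (jj c P z) fun y => by rw [← h.jU one_pos H496.isLor_one, hz]
  refine ⟨a, ?_⟩
  rw [← jj_iso z, ha, ← jj_iso (a • om h.q), map_smul (jj c P)]
  exact congrArg (fun w => adjoint (jj c P) (a • w)) (jj_coe h.q.vac).symm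

end

end Vale.Agent.P352X.EG.Fx
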