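import Vale.Agent.P352Z.FX.C
import Vale.Agent.P352Z.S0.Cl
import Vale.Agent.P352X.EH.W
import Vale.Agent.P352X.CL.BZ

/-!
# P352Z, block FX: the sector of the dilates of the Bose tensor fields
-/

set_option linter.all false

open Filter Topology
open scoped ComplexConjugate

namespace Vale.Agent.P352X.EG.Fx

open Vale.Agent.P352 Vale.Agent.P352.GF Vale.Agent.P352.BW Vale.Agent.P352.H246
open Vale.Agent.P352.H496 Vale.Agent.P352.H755 Vale.Agent.P352.H15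
open Vale.Agent.P352.SubConf (IsAdj)
open Vale.Agent.P352X.EB Vale.Agent.P352Z
open UniformSpace (Completion)
open Fss (ds u ds_test ds_apply ds_inv)
open Fss.G Fsg

noncomputable section

variable {D : Type*} [NormedAddCommGroup D] [InnerProductSpace ℂ D] {c : Cg D} {B : Fld D}

/-- covariance of tensors under the Poincaré group -/
def Tc (Q : Theory D) {k : ℕ} (Φ : (Fin k → Ix) → Fld D) : Prop :=
  ∀ μ L a f v, IsLor L → IsTest f → Φ μ f (Q.U 1 L a v) =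
    ∑ ν : Fin k → Ix, ((∏ i, L (ν i) (μ i) : ℝ) : ℂ) •
      Q.U 1 L a (Φ ν (fun x => f (sim 1 L a x)) v)

variable (c) in
/-- dilates of Bose tensor fields -/
def Dl (B : Fld D) : Prop := ∃ (s : ℝ) (hs : 0 < s) (k : ℕ) (Φ : (Fin k → Ix) → Fld D)
  (μ : Fin k → Ix), (∀ ν, c.Q.bose (Φ ν)) ∧ Tc c.Q Φ ∧ B = Fss.dl c.Q s hs (Φ μ)

variable (c) in
/-- the family -/
def Pf (B : Fld D) : Prop := c.Q.bose B ∧ Ls (Dl c) B

theorem dl_mul {s t : ℝ} (hs : 0 < s) (ht : 0 < t) (f : Fn) (v : D) :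
    Fss.dl c.Q s hs (Fss.dl c.Q t ht B) f v = Fss.dl c.Q (s * t) (mul_pos hs ht) B f v := by
  obtain ⟨s, rfl⟩ : ∃ t, Real.exp t = s := ⟨_, Real.exp_log hs⟩
  obtain ⟨t, rfl⟩ : ∃ s, Real.exp s = t := ⟨_, Real.exp_log ht⟩
  simp only [← Real.exp_add]
  exact CL.dl_dl (m1 c) s t v

theorem dl_one (f : Fn) (v : D) : Fss.dl c.Q 1 one_pos B f v = B f v := by
  have e : ∀ v, u c.Q 1 one_pos v = v := fun v => by
    have := u_inv (m1 c) one_pos v
    simp only [inv_one] at this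
    have h := (U_dil (m1 c) one_pos H496.isLor_one 0 v).1
    rw [smul_zero] at h
    exact h.symm.trans this
  simp only [Fss.dl, inv_one, e]
  exact congrArg (B · v) (funext fun x => by rw [ds_apply, one_smul])

theorem ls_dl (h : Ls (Dl c) B) {s : ℝ} (hs : 0 < s) : Ls (Dl c) (Fss.dl c.Q s hs B) := by
  induction h with
  | base k =>
    obtain ⟨t, ht, k, Φ, μ, h1, h2, rfl⟩ := k
    exact .cg (.base ⟨_, mul_pos hs ht, k, Φ, μ, h1, h2, rfl⟩) fun f v _ => dl_mul hs ht f v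
  | zero => exact .cg .zero fun _ _ _ => map_zero (u c.Q s hs)
  | lin z _ _ h1 h2 => exact .cg (.lin z h1 h2) fun _ _ _ => by simp only [Fss.dl, map_add, map_smul]
  | cg _ e h1 => exact .cg h1 fun f v hf => by simp only [Fss.dl, e _ _ (ds_test hs hf)]

theorem pf_scl (hB : Pf c B) {F : Finset (ℂ × ℕ)} {C : ℂ × ℕ → Fld D} (h : Scl c.Q B F C)
    {p : ℂ × ℕ} (hp : p ∈ F) : Pf c (C p) := by
  obtain ⟨S, a, ha⟩ := CL.vg F p
  exact ⟨(h.1 p).2 hB.1, .cg (Ls.sum S a fun t _ => ls_dl hB.2 (Real.exp_pos t))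
    fun f v hf => CL.sfm h (m1 c) hp ha hf v⟩

theorem pf_of {k : ℕ} {Φ : (Fin k → Ix) → Fld D} (h1 : ∀ ν, c.Q.bose (Φ ν)) (h2 : Tc c.Q Φ)
    (μ : Fin k → Ix) : Pf c (Φ μ) :=
  ⟨h1 μ, .cg (.base ⟨1, one_pos, k, Φ, μ, h1, h2, rfl⟩) fun f v _ => (dl_one f v).symm⟩

theorem ls_pf (hF : FSL c.Q) (h : Ls (Dl c) B) : Ls (Pf c) B := h.mono fun B k => by
  obtain ⟨s, hs, k, Φ, μ, h1, h2, rfl⟩ := k
  obtain ⟨s, rfl⟩ : ∃ t, Real.exp t = s := ⟨_, Real.exp_log hs⟩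
  obtain ⟨F, C, h⟩ := hF _ (c.Q.bose_fld _ (h1 μ))
  exact .cg (Ls.sum F (fun p => CL.pg p s) fun p hp => .base (pf_scl (pf_of h1 h2 μ) h hp))
    fun f v hf => CL.sdl h (m1 c) s hf v

theorem tc_dl {k : ℕ} {Φ : (Fin k → Ix) → Fld D} (h : Tc c.Q Φ) {s : ℝ} (hs : 0 < s) :
    Tc c.Q fun ν => Fss.dl c.Q s hs (Φ ν) := fun μ L a f v hL hf => by
  have R := m1 c
  beta_reduce
  rw [Fss.dl, (U_dil R _ hL a v).1, ← (U_dil R (inv_pos.2 hs) hL _ v).2,
    h μ L _ _ _ hL (ds_test hs hf)]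
  simp only [map_sum, map_smul, Fss.dl, (U_dil R hs hL _ _).1, (U_dil R hs hL _ _).2,
    smul_inv_smul₀ hs.ne']
  refine Finset.sum_congr rfl fun k _ => ?_
  congr 3
  funext x
  rw [ds_apply, ds_apply, N86.c1_sim, N86.c1_sim 1 L a, simL_smul, smul_add,
    smul_inv_smul₀ hs.ne', one_smul, one_smul]

theorem badj (t : E0 c) (h : c.Q.bose B) : ∃ B', c.Q.bose B' ∧ IsAdj B B' := by
  obtain ⟨B1, h1, h2⟩ := c.Q.adj B (c.Q.bose_fld _ h)
  obtain ⟨B2, h3, h4⟩ := Bas.even h1 (t.bas.padj false B B1 h2 fun f v hf => by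
    rw [c.hN.bose B f v h hf]; simp [sg])
  exact ⟨B2, h3, fun f v w hf => by rw [← h4 _ _ (isTest_bar hf)]; exact h2 f v w hf⟩

theorem dl_adj (t : E0 c) (h : Dl c B) : ∃ B', Ls (Dl c) B' ∧ IsAdj B B' := by
  obtain ⟨s, hs, k, Φ, μ, h1, h2, rfl⟩ := h
  choose Φ' a1 a2 using fun ν => badj t (h1 ν)
  refine ⟨_, .base ⟨s, hs, k, Φ', μ, a1, fun μ L a f w hL hf => ?_, rfl⟩, fun f v w hf => ?_⟩
  · refine ext_inner_left ℂ fun z => ?_
    obtain ⟨v, rfl⟩ := Bas.surj t.sg a one_pos hL z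
    have hb := isTest_bar hf
    rw [← bar_bar f, ← a2 μ _ _ _ hb, h2 μ L a _ _ hL hb, sum_inner, inner_sum, bar_bar]
    refine Finset.sum_congr rfl fun i _ => ?_
    rw [inner_smul_left, inner_smul_right, c.Q.U_inner _ _ _ _ _ one_pos hL,
      c.Q.U_inner _ _ _ _ _ one_pos hL, a2 i _ _ _ (Ap.test_sim one_pos hL a hb),
      Complex.conj_ofReal]
    exact congrArg (fun k => _ * inner ℂ v (Φ' i k w)) (bar_bar fun x => f (sim 1 L a x))
  · rw [Fss.dl, Fss.dl, u_adj (m1 c), ← inner_conj_symm, u_adj (m1 c), inner_conj_symm,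
      a2 μ _ _ _ (ds_test hs hf)]
    rfl

theorem ls_cov (h : Ls (Dl c) B) {L : Ix → V} (hL : IsLor L) (a : V) : ∃ C, Ls (Dl c) C ∧
    ∀ f v, IsTest f → B f (c.Q.U 1 L a v) = c.Q.U 1 L a (C (fun x => f (sim 1 L a x)) v) := by
  let W : D →ₗ[ℂ] D := ⟨⟨c.Q.U 1 L a, U_add one_pos hL a⟩, U_smul one_pos hL a⟩
  induction h with
  | base k =>
    obtain ⟨s, hs, k, Φ, μ, h1, h2, rfl⟩ := k
    refine ⟨_, Ls.sum Finset.univ (fun ν : Fin k → Ix => ((∏ i, L (ν i) (μ i) : ℝ) : ℂ))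
      fun ν _ => .base ⟨s, hs, k, Φ, ν, h1, h2, rfl⟩, fun f v hf => ?_⟩
    refine (tc_dl h2 hs μ L a f v hL hf).trans ?_
    show _ = W _
    simp only [map_sum, map_smul]
    rfl
  | zero => exact ⟨_, .zero, fun _ _ _ => (map_zero W).symm⟩
  | lin z _ _ h1 h2 =>
    obtain ⟨C1, a1, b1⟩ := h1
    obtain ⟨C2, a2, b2⟩ := h2
    refine ⟨_, .lin z a1 a2, fun f v hf => ?_⟩
    show _ = W _
    simp only [map_add, map_smul, b1 f v hf, b2 f v hf]
    rfl
  | cg _ e h1 =>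
    obtain ⟨C1, a1, b1⟩ := h1
    exact ⟨C1, a1, fun f v hf => by rw [e f _ hf, b1 f v hf]⟩

theorem fm_pf (t : E0 c) (hF : FSL c.Q) : Fm c (Pf c) where
  bose _ h := h.1
  adj B h := by
    obtain ⟨B1, h1, h2⟩ := badj t h.1
    obtain ⟨B2, h3, h4⟩ := h.2.adj fun B => dl_adj t
    exact ⟨B1, ⟨h1, .cg h3 fun f v hf => adj_eq h2 h4 hf v⟩, h2⟩
  cov B s L a h hs hL := by
    obtain ⟨C, h1, h2⟩ := ls_cov h.2 hL a
    refine ⟨_, ls_pf hF (ls_dl h1 (inv_pos.2 hs)), fun f v hf => ?_⟩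
    have R := m1 c
    rw [← (U_dil R hs hL a v).2, h2 f _ hf, ← (U_dil R hs hL a _).2, Fss.dl, u_inv R]
    simp only [inv_inv]
    congr 2
    funext x
    simp only [ds_apply, N86.c1_sim _ L a, simL_smul, one_smul, smul_inv_smul₀ hs.ne']

section sector

variable (h : Hy c (Pf c)) (hF : FSL c.Q)
include h

theorem Hy.cl {P : Fld D → Prop} (h : Hy c P) (hB : Ls P B) : ZZ.S0.Cl h.q.fld (tt c P B) := by
  induction hB with
  | base k => exact .base ⟨_, k, rfl⟩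
  | zero => exact .cg .zero fun f v hf => Subtype.ext (h.tl .zero hf v)
  | lin z k1 k2 h1 h2 =>
    refine .cg (.lin z h1 h2) fun f v hf => Subtype.ext ?_
    rw [h.tl (.lin z k1 k2) hf, Submodule.coe_add, Submodule.coe_smul, h.tl k1 hf, h.tl k2 hf]
  | cg k e h1 =>
    exact .cg h1 fun f v hf => Subtype.ext (by rw [h.tl (.cg k e) hf, h.tl k hf, e f _ hf])

include hF

theorem Hy.tf : TfGen (ZZ.S0.clo h.q) := fun S h0 k => by
  have key : ∀ B, Ls (Dl c) B → ∀ f v, IsTest f → v ∈ S → tt c (Pf c) B f v ∈ S := by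
    intro B hB f v hf hv
    induction hB with
    | base j =>
      obtain ⟨s, hs, n, Φ, μ, h1, h2, rfl⟩ := j
      have l : ∀ ν, Ls (Pf c) (Fss.dl c.Q s hs (Φ ν)) := fun ν =>
        ls_pf hF (.base ⟨s, hs, n, Φ, ν, h1, h2, rfl⟩)
      refine k n (fun ν => tt c (Pf c) (Fss.dl c.Q s hs (Φ ν))) μ f v
        ⟨fun ν => Hy.cl h h (l ν), fun ν L g w hL hg => Subtype.ext ?_⟩ hf hv
      have e : ∀ w, (((ZZ.S0.clo h.q).U 1 L 0 w : ES c (Pf c)) : D) = c.Q.U 1 L 0 w :=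
        h.qU one_pos hL 0
      simp only [Submodule.coe_sum, Submodule.coe_smul, e, h.tl (l _) hg,
        h.tl (l _) (Ap.test_sim one_pos hL 0 hg)]
      exact tc_dl h2 hs ν L 0 g w hL hg
    | zero =>
      rw [show tt c (Pf c) (fun _ _ => 0) f v = 0 from Subtype.ext (h.tl .zero hf v)]
      exact zero_mem _
    | lin z k1 k2 h1 h2 =>
      convert add_mem h1 (S.smul_mem z h2) using 1
      refine Subtype.ext ?_
      rw [h.tl (ls_pf hF (.lin z k1 k2)) hf, Submodule.coe_add, Submodule.coe_smul,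
        h.tl (ls_pf hF k1) hf, h.tl (ls_pf hF k2) hf]
    | cg j e h1 =>
      convert h1 using 1
      exact Subtype.ext (by rw [h.tl (ls_pf hF (.cg j e)) hf, h.tl (ls_pf hF j) hf, e f _ hf])
  exact h.cyc S h0 fun B f v hB => key B hB.2 f v

theorem Hy.fsl : FSL h.q := by
  classical
  rintro _ ⟨B, hB, rfl⟩
  obtain ⟨F, C, d⟩ := hF B (h.fm.fld hB)
  have p : ∀ e, Pf c (if e ∈ F then C e else B) := fun e => by
    split_ifs with he
    exacts [pf_scl hB d he, hB]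
  refine ⟨F, fun e => tt c _ (if e ∈ F then C e else B),
    fun e => ⟨⟨_, p e, rfl⟩, fun _ => ⟨_, p e, rfl⟩⟩, fun s f v hs hf => Subtype.ext ?_⟩
  simp only [Submodule.coe_sum, Submodule.coe_smul, h.qU hs H496.isLor_one, h.tc hB hf,
    h.tc (p _) (Ap.test_sim hs H496.isLor_one 0 hf)]
  exact (d.2 s f v hs hf).trans (Finset.sum_congr rfl fun e he => by rw [if_pos he])

theorem Hy.back (hB : Pf c B) {F : Finset (ℂ × ℕ)} {C : ℂ × ℕ → Fld (ES c (Pf c))}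
    (d : Scl h.q (tt c _ B) F C) : ∃ C', Scl c.Q B F C' := by
  choose C' p e using fun e => (d.1 e).1
  obtain ⟨F1, C1, d1⟩ := hF B (h.fm.fld hB)
  refine ⟨C', fun e => ⟨h.fm.fld (p e), fun _ => (p e).1⟩, fun s f v hs hf => ?_⟩
  have o := H496.isLor_one
  have lo : ∀ {ι : Type} (t : Finset ι) (z : ι → ℂ) (X : ι → Fld D), (∀ i, c.Q.bose (X i)) →
      ∀ E f g v, c.Q.fld E → IsTest f → IsTest g → Sep f g →
      ∑ i ∈ t, z i • X i f (E g v) = E g (∑ i ∈ t, z i • X i f v) :=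
    fun t z X hX E f g v hE hf hg k => by
      rw [← Fss.fl_apply hE hg (∑ i ∈ t, _), map_sum]
      exact Finset.sum_congr rfl fun i _ => by
        rw [map_smul, c.Q.loc _ E f g v (hX i) hE hf hg k]; rfl
  have z := FE.bz (Q := ZZ.S0.clo c.Q) (A := fun g w => ∑ e ∈ F1, CL.zz s e • C1 e g w +
      (-1 : ℂ) • ∑ e ∈ F, CL.zz s e • C' e g w)
    ⟨.lin _ (ZZ.S0.cl_sum _ _ fun e => .base (d1.1 e).1)
      (ZZ.S0.cl_sum _ _ fun e => .base (h.fm.fld (p e))), fun E f g v hE hf hg k => by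
      beta_reduce
      rw [lo _ _ _ (fun e => (d1.1 e).2 hB.1) E f g v hE hf hg k,
        lo _ _ _ (fun e => (p e).1) E f g v hE hf hg k, ← Fss.fl_apply hE hg (_ + _), map_add,
        map_smul]
      rfl⟩
    (fun g hg => by
      have t1 := ds_test (inv_pos.2 hs) hg
      have a1 := CL.key d1 hs t1 c.Q.vac
      have a2 := congrArg Subtype.val (d.2 s _ h.q.vac hs t1)
      simp only [Submodule.coe_sum, Submodule.coe_smul, h.qU hs o, h.tc hB t1, e,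
        h.tc (p _) (Ap.test_sim hs o 0 t1)] at a2
      rw [ZZ.S0.ds_inv' hs] at a1
      have a3 : B (ds s⁻¹ g) (u c.Q s hs c.Q.vac) =
          u c.Q s hs (∑ e ∈ F, CL.zz s e • C' e g c.Q.vac) := by
        rw [map_sum]
        refine a2.trans (Finset.sum_congr rfl fun e _ => ?_)
        rw [map_smul, show (fun x => ds s⁻¹ g (sim s GF.one 0 x)) = g from ZZ.S0.ds_inv' hs g]
        rfl
      have a4 := congrArg (u c.Q s⁻¹ (inv_pos.2 hs)) (a1.symm.trans a3)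
      rw [inv_u (m1 c), inv_u (m1 c)] at a4
      show ∑ e ∈ F1, CL.zz s e • C1 e g c.Q.vac + (-1 : ℂ) • ∑ e ∈ F, CL.zz s e • C' e g c.Q.vac = 0
      rw [a4, neg_one_smul, add_neg_cancel]) (ds_test hs hf) v
  rw [neg_one_smul, add_neg_eq_zero] at z
  refine (CL.key d1 hs hf v).trans ?_
  rw [z, map_sum]
  exact Finset.sum_congr rfl fun e _ => map_smul _ _ _

end sector

end

end Vale.Agent.P352X.EG.Fx
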