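import Vale.Agent.P352Z.FX.D

/-!
# P352Z, block FX: from Bose theories to graded theories
-/

set_option linter.all false

open Filter Topology
open scoped ComplexConjugate

namespace Vale.Agent.P352X.EG.Fx

open Vale.Agent.P352 Vale.Agent.P352.GF Vale.Agent.P352.BW Vale.Agent.P352.H246
open Vale.Agent.P352.H496 Vale.Agent.P352.H755 Vale.Agent.P352.H15
open Vale.Agent.P352.SubConf (IsAdj)
open Vale.Agent.P352X.EB Vale.Agent.P352Z
open UniformSpace (Completion)

noncomputable section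

/-- the absence of logarithms in theories of Bose fields -/
def Core (E : Type*) [NormedAddCommGroup E] [InnerProductSpace ℂ E] : Prop :=
  ∀ (Q : Theory E) (T : Ix → Ix → Fld E) (J : Ix → Fld E) (A : (V → V) → E → E)
    (N : Set V → VonNeumannAlgebra (Completion E)), Stress0 Q T → ND.PCh Q T A → Virial0 Q T J A →
    FSL Q → TfGen (ZZ.S0.clo Q) → LNm Q A N → L.UVac Q → NoLog Q T

variable {D : Type*} [NormedAddCommGroup D] [InnerProductSpace ℂ D] {c : Cg D}
  {T : Ix → Ix → Fld D} {J : Ix → Fld D}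

theorem pf_T (hT : Stress0 c.Q T) (m n : Ix) : Pf c (T m n) :=
  pf_of (Φ := fun μ : Fin 2 → Ix => T (μ 0) (μ 1)) (fun _ => hT.bose _ _)
    (fun μ L a f v hL hf => by
      beta_reduce
      rw [hT.cov _ _ L a f v hL hf, ← Fintype.sum_prod_type']
      refine (Fintype.sum_equiv (finTwoArrowEquiv Ix) _ _ fun ν => ?_).symm
      simp [Fin.prod_univ_two]) ![m, n]

theorem pf_J (hV : Virial0 c.Q T J c.A) (m : Ix) : Pf c (J m) :=
  pf_of (Φ := fun μ : Fin 1 → Ix => J (μ 0)) (fun _ => hV.bose _)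
    (fun μ L a f v hL hf => by
      beta_reduce
      rw [hV.cov _ L a f v hL hf]
      refine (Fintype.sum_equiv (Equiv.funUnique (Fin 1) Ix) _ _ fun ν => ?_).symm
      simp) fun _ => m

theorem nologG (core : Core (ES c (Pf c))) (hT : Stress0 c.Q T) (hP : ND.PCh c.Q T c.A)
    (hV : Virial0 c.Q T J c.A) (hF : FSL c.Q) (hU : L.UVac c.Q) (hE : EBd c.Q) : NoLog c.Q T := by
  have t := e0_thm c
  have h : Hy c (Pf c) := ⟨t, fm_pf t hF, wc0 t (gr_row t) hE (fm_pf t hF)⟩
  have pT := pf_T hT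
  have pJ := pf_J hV
  have i1 : IsSim 1 (id : V → V) := ⟨0, 0, fun _ _ => by simp, fun _ _ => by simp⟩
  have k := core h.q (fun m n => tt c _ (T m n)) (fun m => tt c _ (J m)) _ _
    ⟨fun m n => ⟨_, pT m n, rfl⟩, fun m n f v hf => Subtype.ext (by
      rw [h.tc (pT m n) hf, h.tc (pT n m) hf, hT.symm m n f v hf]),
      fun m n => h.tadj (pT m n) (pT m n) (hT.herm m n), fun m n L a f v hL hf => ?_,
      fun n f v hf => ?_, ?_⟩ ?_
    ⟨fun m => ⟨_, pJ m, rfl⟩, fun m L a f v hL hf => ?_, fun f v hf => ?_, ?_⟩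
    (h.fsl hF) (h.tf hF) h.lnm (h.uv hU)
  · intro m n
    obtain ⟨F, C, d, h4⟩ := k m n
    obtain ⟨C', d'⟩ := h.back hF (pT m n) d
    exact ⟨F, C', d', h4⟩
  · refine Subtype.ext ?_
    simp only [Submodule.coe_sum, Submodule.coe_smul, h.tc (pT _ _) hf, h.qU one_pos hL,
      h.tc (pT _ _) (Grp.test_sim one_pos hL a hf)]
    exact hT.cov m n L a f v hL hf
  · refine Subtype.ext ?_
    simp only [Submodule.coe_sum, fun m => h.tc (pT m n) (Grp.test_pd m hf)]
    exact hT.conserved n f v hf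
  · rintro F n _ f v w hF ⟨B, hB, rfl⟩ hf hc
    have h1 := hT.charge F n _ f v w hF (h.fm.fld hB) hf hc
    obtain ⟨_, _, -, -, -, -, hF⟩ := hF
    rw [Submodule.coe_inner, Submodule.coe_smul, h.tc hB (Grp.test_pd n hf)]
    refine h1.congr' ((eventually_gt_atTop 0).mono fun R hR => ?_)
    simp only [Submodule.coe_inner, Submodule.coe_sub, h.tc hB hf, h.tc (pT _ _) (hF R hR).1]
  · rintro F X _ f v w hF hX ⟨B, hB, rfl⟩ hf hc
    have h1 := hP F X _ f v w hF hX (h.fm.fld hB) hf hc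
    obtain ⟨_, _, -, -, -, -, hF⟩ := hF
    rw [Submodule.coe_inner, Submodule.coe_sub, h.ac hX, h.tc hB hf, h.tc hB hf, h.ac hX]
    refine h1.congr' ((eventually_gt_atTop 0).mono fun R hR => ?_)
    simp only [Submodule.coe_inner, Submodule.coe_sub, h.tc hB hf, ND.cur, Submodule.coe_sum,
      fun n => h.tc (pT o n) (Sct.test_cur hX n (hF R hR).1)]
  · refine Subtype.ext ?_
    simp only [Submodule.coe_sum, Submodule.coe_smul, h.tc (pJ _) hf, h.qU one_pos hL,
      h.tc (pJ _) (Grp.test_sim one_pos hL a hf)]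
    exact hV.cov m L a f v hL hf
  · refine Subtype.ext ?_
    simp only [GF.tr, Submodule.coe_sum, Submodule.coe_smul, Submodule.coe_neg, h.tc (pT _ _) hf,
      fun m => h.tc (pJ m) (Grp.test_pd m hf)]
    exact hV.div f v hf
  · rintro F _ f v w hF ⟨B, hB, rfl⟩ hf hc
    have h1 := hV.dil F _ f v w hF (h.fm.fld hB) hf hc
    obtain ⟨_, _, -, -, -, -, hF⟩ := hF
    rw [Submodule.coe_inner, Submodule.coe_sub, h.ac i1, h.tc hB hf, h.tc hB hf, h.ac i1]
    refine h1.congr' ((eventually_gt_atTop 0).mono fun R hR => ?_)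
    simp only [Submodule.coe_inner, Submodule.coe_sub, h.tc hB hf, dcur, ND.cur, Submodule.coe_sum,
      fun n => h.tc (pT o n) (Sct.test_cur i1 n (hF R hR).1), h.tc (pJ o) (hF R hR).1]

end

end Vale.Agent.P352X.EG.Fx
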